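import Vale.Agent.P302.H320.Star

/-!
# The fractional packing of the node, abstract form
-/

namespace Vale.Agent.P302.Star

open Finset

variable {q K : ℕ} {A0 A1 τ β₂ : Type}

def arm0 (x1 : A0 → Fin q → τ → τ → ℚ) (p0 : A0 → ℚ) (p1 : A1 → ℚ)
    (pB pC : Fin q → τ → ℚ) (M0 M1 : Fin q → Fin q → ℚ) :
    A0 ⊕ A1 → (Fin q × τ) ⊕ β₂ → (Fin q × τ) ⊕ β₂ → ℚ
  | Sum.inl u, Sum.inl y, Sum.inl z =>
      (if y.1 = z.1 then x1 u y.1 y.2 z.2 else 0) + M0 y.1 z.1 * (p0 u * (pB y.1 y.2 * pC z.1 z.2))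
  | Sum.inr v, Sum.inl y, Sum.inl z => M1 y.1 z.1 * (p1 v * (pB y.1 y.2 * pC z.1 z.2))
  | _, _, _ => 0

def arm1 (x2 : A1 → Fin K → β₂ → β₂ → ℚ) (i : Fin K) :
    A0 ⊕ A1 → (Fin q × τ) ⊕ β₂ → (Fin q × τ) ⊕ β₂ → ℚ
  | Sum.inr v, Sum.inr y, Sum.inr z => x2 v i y z
  | _, _, _ => 0

/-- the fractional packing of the node -/
def nw (x1 : A0 → Fin q → τ → τ → ℚ) (x2 : A1 → Fin K → β₂ → β₂ → ℚ) (p0 : A0 → ℚ) (p1 : A1 → ℚ)
    (pB pC : Fin q → τ → ℚ) (M0 M1 : Fin q → Fin q → ℚ) (x : A0 ⊕ A1) (i : Fin (K + 1))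
    (y z : (Fin q × τ) ⊕ β₂) : ℚ :=
  Fin.cases (motive := fun _ => ℚ) (arm0 x1 p0 p1 pB pC M0 M1 x y z) (fun i => arm1 x2 i x y z) i

variable {x1 : A0 → Fin q → τ → τ → ℚ} {x2 : A1 → Fin K → β₂ → β₂ → ℚ} {p0 : A0 → ℚ} {p1 : A1 → ℚ}
    {pB pC : Fin q → τ → ℚ} {M0 M1 : Fin q → Fin q → ℚ}

@[simp] theorem nw_zero (x : A0 ⊕ A1) (y z : (Fin q × τ) ⊕ β₂) :
    nw x1 x2 p0 p1 pB pC M0 M1 x 0 y z = arm0 x1 p0 p1 pB pC M0 M1 x y z := rfl

@[simp] theorem nw_succ (x : A0 ⊕ A1) (i : Fin K) (y z : (Fin q × τ) ⊕ β₂) :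
    nw x1 x2 p0 p1 pB pC M0 M1 x i.succ y z = arm1 x2 i x y z := rfl

section

variable [Fintype A0] [Fintype A1] [Fintype τ] [Fintype β₂]

omit [Fintype A0] [Fintype A1] in
theorem sum_A0 (hB : ∀ j, ∑ y, pB j y = 1) (hC : ∀ j, ∑ y, pC j y = 1) (u : A0) :
    ∑ i, ∑ y, ∑ z, nw x1 x2 p0 p1 pB pC M0 M1 (Sum.inl u) i y z =
      ∑ j, ∑ y, ∑ z, x1 u j y z + p0 u * ∑ j, ∑ k, M0 j k := by
  rw [Fin.sum_univ_succ]
  simp only [nw_zero, nw_succ, Fintype.sum_sum_type, Fintype.sum_prod_type, arm0, arm1,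
    Finset.sum_const_zero, add_zero]
  have key : ∀ j : Fin q, ∀ y : τ, ∑ k : Fin q, ∑ z : τ, ((if j = k then x1 u j y z else 0) +
      M0 j k * (p0 u * (pB j y * pC k z))) =
        ∑ z, x1 u j y z + pB j y * (p0 u * ∑ k, M0 j k) := by
    intro j y
    simp only [Finset.sum_add_distrib]
    congr 1
    · rw [Finset.sum_comm]
      simp
    · rw [Finset.mul_sum, Finset.mul_sum]
      refine sum_congr rfl fun k _ => ?_
      have : ∀ z, M0 j k * (p0 u * (pB j y * pC k z)) = (pB j y * (p0 u * M0 j k)) * pC k z :=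
        fun z => by ring
      simp only [this]
      rw [← Finset.mul_sum, hC, mul_one]
  simp only [key]
  simp only [Finset.sum_add_distrib]
  congr 1
  have : ∀ j : Fin q, ∑ y, pB j y * (p0 u * ∑ k, M0 j k) = p0 u * ∑ k, M0 j k := by
    intro j
    rw [← Finset.sum_mul, hB, one_mul]
  simp only [this, ← Finset.mul_sum]

omit [Fintype A0] [Fintype A1] in
theorem sum_A1 (hB : ∀ j, ∑ y, pB j y = 1) (hC : ∀ j, ∑ y, pC j y = 1) (v : A1) :
    ∑ i, ∑ y, ∑ z, nw x1 x2 p0 p1 pB pC M0 M1 (Sum.inr v) i y z =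
      ∑ i, ∑ y, ∑ z, x2 v i y z + p1 v * ∑ j, ∑ k, M1 j k := by
  rw [Fin.sum_univ_succ]
  simp only [nw_zero, nw_succ, Fintype.sum_sum_type, Fintype.sum_prod_type, arm0, arm1,
    Finset.sum_const_zero, add_zero, zero_add]
  rw [add_comm]
  congr 1
  have key : ∀ j : Fin q, ∀ y : τ, ∑ k : Fin q, ∑ z : τ, M1 j k * (p1 v * (pB j y * pC k z)) =
        pB j y * (p1 v * ∑ k, M1 j k) := by
    intro j y
    rw [Finset.mul_sum, Finset.mul_sum]
    refine sum_congr rfl fun k _ => ?_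
    have : ∀ z, M1 j k * (p1 v * (pB j y * pC k z)) = (pB j y * (p1 v * M1 j k)) * pC k z :=
      fun z => by ring
    simp only [this]
    rw [← Finset.mul_sum, hC, mul_one]
  simp only [key]
  have : ∀ j : Fin q, ∑ y, pB j y * (p1 v * ∑ k, M1 j k) = p1 v * ∑ k, M1 j k := by
    intro j
    rw [← Finset.sum_mul, hB, one_mul]
  simp only [this, ← Finset.mul_sum]

theorem sum_B0 (h0 : ∑ u, p0 u = 1) (h1 : ∑ v, p1 v = 1) (hC : ∀ j, ∑ y, pC j y = 1)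
    (j : Fin q) (y : τ) :
    ∑ x, ∑ z, nw x1 x2 p0 p1 pB pC M0 M1 x (0 : Fin (K + 1)) (Sum.inl (j, y)) z =
      ∑ u, ∑ z, x1 u j y z + pB j y * (∑ k, M0 j k + ∑ k, M1 j k) := by
  simp only [nw_zero, Fintype.sum_sum_type, Fintype.sum_prod_type, arm0,
    Finset.sum_const_zero, add_zero]
  have key : ∀ u : A0, ∑ k : Fin q, ∑ z : τ, ((if j = k then x1 u j y z else 0) +
      M0 j k * (p0 u * (pB j y * pC k z))) =
        ∑ z, x1 u j y z + p0 u * (pB j y * ∑ k, M0 j k) := by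
    intro u
    simp only [Finset.sum_add_distrib]
    congr 1
    · rw [Finset.sum_comm]
      simp
    · rw [Finset.mul_sum, Finset.mul_sum]
      refine sum_congr rfl fun k _ => ?_
      have : ∀ z, M0 j k * (p0 u * (pB j y * pC k z)) = (p0 u * (pB j y * M0 j k)) * pC k z :=
        fun z => by ring
      simp only [this]
      rw [← Finset.mul_sum, hC, mul_one]
  have key1 : ∀ v : A1, ∑ k : Fin q, ∑ z : τ, M1 j k * (p1 v * (pB j y * pC k z)) =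
        p1 v * (pB j y * ∑ k, M1 j k) := by
    intro v
    rw [Finset.mul_sum, Finset.mul_sum]
    refine sum_congr rfl fun k _ => ?_
    have : ∀ z, M1 j k * (p1 v * (pB j y * pC k z)) = (p1 v * (pB j y * M1 j k)) * pC k z :=
      fun z => by ring
    simp only [this]
    rw [← Finset.mul_sum, hC, mul_one]
  simp only [key, key1]
  rw [Finset.sum_add_distrib]
  rw [← Finset.sum_mul, ← Finset.sum_mul, h0, h1]
  ring

theorem sum_C0 (h0 : ∑ u, p0 u = 1) (h1 : ∑ v, p1 v = 1) (hB : ∀ j, ∑ y, pB j y = 1)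
    (k : Fin q) (z : τ) :
    ∑ x, ∑ y, nw x1 x2 p0 p1 pB pC M0 M1 x (0 : Fin (K + 1)) y (Sum.inl (k, z)) =
      ∑ u, ∑ y, x1 u k y z + pC k z * (∑ j, M0 j k + ∑ j, M1 j k) := by
  simp only [nw_zero, Fintype.sum_sum_type, Fintype.sum_prod_type, arm0,
    Finset.sum_const_zero, add_zero]
  have key : ∀ u : A0, ∑ j : Fin q, ∑ y : τ, ((if j = k then x1 u j y z else 0) +
      M0 j k * (p0 u * (pB j y * pC k z))) =
        ∑ y, x1 u k y z + p0 u * (pC k z * ∑ j, M0 j k) := by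
    intro u
    simp only [Finset.sum_add_distrib]
    congr 1
    · rw [Finset.sum_comm]
      simp
    · rw [Finset.mul_sum, Finset.mul_sum]
      refine sum_congr rfl fun j _ => ?_
      have : ∀ y, M0 j k * (p0 u * (pB j y * pC k z)) = (p0 u * (pC k z * M0 j k)) * pB j y :=
        fun y => by ring
      simp only [this]
      rw [← Finset.mul_sum, hB, mul_one]
  have key1 : ∀ v : A1, ∑ j : Fin q, ∑ y : τ, M1 j k * (p1 v * (pB j y * pC k z)) =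
        p1 v * (pC k z * ∑ j, M1 j k) := by
    intro v
    rw [Finset.mul_sum, Finset.mul_sum]
    refine sum_congr rfl fun j _ => ?_
    have : ∀ y, M1 j k * (p1 v * (pB j y * pC k z)) = (p1 v * (pC k z * M1 j k)) * pB j y :=
      fun y => by ring
    simp only [this]
    rw [← Finset.mul_sum, hB, mul_one]
  simp only [key, key1]
  rw [Finset.sum_add_distrib]
  rw [← Finset.sum_mul, ← Finset.sum_mul, h0, h1]
  ring

theorem nw_isFrac_aux (h0 : ∑ u, p0 u = 1) (h1 : ∑ v, p1 v = 1)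
    (hB : ∀ j, ∑ y, pB j y = 1) (hC : ∀ j, ∑ y, pC j y = 1)
    (n0 : ∀ u, 0 ≤ p0 u) (n1 : ∀ v, 0 ≤ p1 v) (nB : ∀ j y, 0 ≤ pB j y) (nC : ∀ j y, 0 ≤ pC j y)
    (nx1 : ∀ u j y z, 0 ≤ x1 u j y z) (nx2 : ∀ v i y z, 0 ≤ x2 v i y z)
    (nM0 : ∀ j k, 0 ≤ M0 j k) (nM1 : ∀ j k, 0 ≤ M1 j k)
    (lA0 : ∀ u, ∑ j, ∑ y, ∑ z, x1 u j y z + p0 u * ∑ j, ∑ k, M0 j k ≤ 1)
    (lA1 : ∀ v, ∑ i, ∑ y, ∑ z, x2 v i y z + p1 v * ∑ j, ∑ k, M1 j k ≤ 1)
    (lB : ∀ j y, ∑ u, ∑ z, x1 u j y z + pB j y * (∑ k, M0 j k + ∑ k, M1 j k) ≤ 1)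
    (lC : ∀ k z, ∑ u, ∑ y, x1 u k y z + pC k z * (∑ j, M0 j k + ∑ j, M1 j k) ≤ 1)
    (lB2 : ∀ i y, ∑ v, ∑ z, x2 v i y z ≤ 1) (lC2 : ∀ i z, ∑ v, ∑ y, x2 v i y z ≤ 1)
    {a : A0 ⊕ A1 → ℤ} {b c : Fin (K + 1) → (Fin q × τ) ⊕ β₂ → ℤ}
    (hu1 : ∀ u j y z, x1 u j y z ≠ 0 → a (Sum.inl u) + b 0 (Sum.inl (j, y)) + c 0 (Sum.inl (j, z)) ≤ 0)
    (hu2 : ∀ v i y z, x2 v i y z ≠ 0 →
      a (Sum.inr v) + b (Fin.succ i) (Sum.inr y) + c (Fin.succ i) (Sum.inr z) ≤ 0)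
    (hu3 : ∀ u j y k z, M0 j k ≠ 0 → a (Sum.inl u) + b 0 (Sum.inl (j, y)) + c 0 (Sum.inl (k, z)) ≤ 0)
    (hu4 : ∀ u j y k z, M1 j k ≠ 0 → a (Sum.inr u) + b 0 (Sum.inl (j, y)) + c 0 (Sum.inl (k, z)) ≤ 0) :
    IsFrac a b c (nw x1 x2 p0 p1 pB pC M0 M1) := by
  refine ⟨?_, ?_, ?_, ?_, ?_⟩
  · intro x i y z
    induction i using Fin.cases with
    | zero =>
      rw [nw_zero]
      rcases x with u | v <;> rcases y with ⟨j, y⟩ | y <;> rcases z with ⟨k, z⟩ | z <;>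
        simp only [arm0] <;> try exact le_rfl
      · refine add_nonneg ?_ (mul_nonneg (nM0 _ _) (mul_nonneg (n0 _) (mul_nonneg (nB _ _) (nC _ _))))
        split_ifs
        · exact nx1 _ _ _ _
        · exact le_rfl
      · exact mul_nonneg (nM1 _ _) (mul_nonneg (n1 _) (mul_nonneg (nB _ _) (nC _ _)))
    | succ i =>
      rw [nw_succ]
      rcases x with u | v <;> rcases y with ⟨j, y⟩ | y <;> rcases z with ⟨k, z⟩ | z <;>
        simp only [arm1] <;> try exact le_rfl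
      exact nx2 _ _ _ _
  · intro x i y z
    induction i using Fin.cases with
    | zero =>
      rw [nw_zero]
      rcases x with u | v <;> rcases y with ⟨j, y⟩ | y <;> rcases z with ⟨k, z⟩ | z <;>
        simp only [arm0] <;> intro hne <;> try exact absurd rfl hne
      · by_cases hM : M0 j k = 0
        · rw [hM, zero_mul, add_zero] at hne
          split_ifs at hne with hjk
          · subst hjk
            exact hu1 _ _ _ _ hne
          · exact absurd rfl hne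
        · exact hu3 _ _ _ _ _ hM
      · by_cases hM : M1 j k = 0
        · rw [hM, zero_mul] at hne
          exact absurd rfl hne
        · exact hu4 _ _ _ _ _ hM
    | succ i =>
      rw [nw_succ]
      rcases x with u | v <;> rcases y with ⟨j, y⟩ | y <;> rcases z with ⟨k, z⟩ | z <;>
        simp only [arm1] <;> intro hne <;> try exact absurd rfl hne
      exact hu2 _ _ _ _ hne
  · rintro (u | v)
    · rw [sum_A0 hB hC]
      exact lA0 u
    · rw [sum_A1 hB hC]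
      exact lA1 v
  · intro i y
    induction i using Fin.cases with
    | zero =>
      rcases y with ⟨j, y⟩ | y
      · rw [sum_B0 h0 h1 hC]
        exact lB j y
      · simp [arm0]
    | succ i =>
      rcases y with ⟨j, y⟩ | y
      · simp [arm1]
      · have := lB2 i y
        simpa [arm1, Fintype.sum_sum_type] using this
  · intro i z
    induction i using Fin.cases with
    | zero =>
      rcases z with ⟨k, z⟩ | z
      · rw [sum_C0 h0 h1 hB]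
        exact lC k z
      · simp [arm0]
    | succ i =>
      rcases z with ⟨k, z⟩ | z
      · simp [arm1]
      · have := lC2 i z
        simpa [arm1, Fintype.sum_sum_type] using this

theorem nw_total (h0 : ∑ u, p0 u = 1) (h1 : ∑ v, p1 v = 1)
    (hB : ∀ j, ∑ y, pB j y = 1) (hC : ∀ j, ∑ y, pC j y = 1) :
    ∑ x, ∑ i, ∑ y, ∑ z, nw (K := K) (β₂ := β₂) x1 x2 p0 p1 pB pC M0 M1 x i y z =
      ∑ u, ∑ j, ∑ y, ∑ z, x1 u j y z + ∑ v, ∑ i, ∑ y, ∑ z, x2 v i y z +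
        ∑ j, ∑ k, M0 j k + ∑ j, ∑ k, M1 j k := by
  rw [Fintype.sum_sum_type]
  simp only [sum_A0 hB hC, sum_A1 hB hC, Finset.sum_add_distrib]
  rw [← Finset.sum_mul, ← Finset.sum_mul, h0, h1]
  ring

end

end Vale.Agent.P302.Star
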