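import Vale.Agent.P302.H320.FracAbs

/-!
# The fractional packing of the node: existence
-/

namespace Vale.Agent.P302.Star

open Finset

variable {q K : ℕ} {A0 A1 τ β₂ : Type} [Fintype A0] [Fintype A1] [Fintype τ] [Fintype β₂]

theorem M0_row {p : ℕ} {A : ℚ} (hA : 0 ≤ A) (j : Fin (p + 1)) :
    ∑ k : Fin (p + 1), (if (j : ℕ) = k + 1 then A else 0) ≤ A := by
  by_cases hj : ∃ k : Fin (p + 1), (j : ℕ) = k + 1
  · obtain ⟨k, hk⟩ := hj
    rw [Finset.sum_eq_single k]
    · simp [hk]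
    · intro k' _ hne
      rw [if_neg]
      intro h
      apply hne
      ext
      omega
    · intro h
      exact absurd (mem_univ _) h
  · rw [Finset.sum_eq_zero]
    · exact hA
    · intro k _
      rw [if_neg]
      intro h
      exact hj ⟨k, h⟩

theorem M0_col {p : ℕ} {A : ℚ} (hA : 0 ≤ A) (k : Fin (p + 1)) :
    ∑ j : Fin (p + 1), (if (j : ℕ) = k + 1 then A else 0) ≤ A := by
  by_cases hj : ∃ j : Fin (p + 1), (j : ℕ) = k + 1
  · obtain ⟨j, hk⟩ := hj
    rw [Finset.sum_eq_single j]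
    · simp [hk]
    · intro k' _ hne
      rw [if_neg]
      intro h
      apply hne
      ext
      omega
    · intro h
      exact absurd (mem_univ _) h
  · rw [Finset.sum_eq_zero]
    · exact hA
    · intro k _
      rw [if_neg]
      intro h
      exact hj ⟨k, h⟩

theorem M0_total {p : ℕ} (A : ℚ) :
    ∑ j : Fin (p + 1), ∑ k : Fin (p + 1), (if (j : ℕ) = k + 1 then A else 0) = p * A := by
  rw [Fin.sum_univ_succ]
  have h0 : ∑ k : Fin (p + 1), (if ((0 : Fin (p + 1)) : ℕ) = k + 1 then A else 0) = 0 := by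
    refine Finset.sum_eq_zero fun k _ => ?_
    rw [if_neg]
    simp
  rw [h0, zero_add]
  have h1 : ∀ j : Fin p, ∑ k : Fin (p + 1), (if (j.succ : ℕ) = k + 1 then A else 0) = A := by
    intro j
    rw [Finset.sum_eq_single (Fin.castSucc j)]
    · simp
    · intro k _ hne
      rw [if_neg]
      intro h
      apply hne
      ext
      simp at h ⊢
      omega
    · intro h
      exact absurd (mem_univ _) h
  simp only [h1]
  simp

theorem frac_node {p : ℕ} {x1 : A0 → Fin (p + 1) → τ → τ → ℚ} {x2 : A1 → Fin K → β₂ → β₂ → ℚ}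
    {a0 : A0 → ℤ} {b0 c0 : Fin (p + 1) → τ → ℤ} {a2 : A1 → ℤ} {b2 c2 : Fin K → β₂ → ℤ}
    (hx1 : IsFrac a0 b0 c0 x1) (hx2 : IsFrac a2 b2 c2 x2) {V₁ V₂ n C : ℚ}
    (hV1 : ∑ x, ∑ i, ∑ y, ∑ z, x1 x i y z = V₁) (hV2 : ∑ x, ∑ i, ∑ y, ∑ z, x2 x i y z = V₂)
    (hn : n = Fintype.card τ) (hC : (p + 1) * C = Fintype.card A1 - V₂ + V₁)
    (hCV : V₁ ≤ C) (hCn : C < n) (hR0 : (0 : ℚ) < Fintype.card A0 - V₁)
    (hR0' : p * (n - C) ≤ Fintype.card A0 - V₁) (hR1 : (0 : ℚ) < Fintype.card A1 - V₂)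
    {a : A0 ⊕ A1 → ℤ} {b c : Fin (K + 1) → (Fin (p + 1) × τ) ⊕ β₂ → ℤ}
    (hu1 : ∀ u j y z, a0 u + b0 j y + c0 j z ≤ 0 →
      a (Sum.inl u) + b 0 (Sum.inl (j, y)) + c 0 (Sum.inl (j, z)) ≤ 0)
    (hu2 : ∀ v i y z, a2 v + b2 i y + c2 i z ≤ 0 →
      a (Sum.inr v) + b (Fin.succ i) (Sum.inr y) + c (Fin.succ i) (Sum.inr z) ≤ 0)
    (hu3 : ∀ u (j : Fin (p + 1)) y (k : Fin (p + 1)) z, (j : ℕ) = k + 1 →
      a (Sum.inl u) + b 0 (Sum.inl (j, y)) + c 0 (Sum.inl (k, z)) ≤ 0)
    (hu4 : ∀ u j y z, a (Sum.inr u) + b 0 (Sum.inl (j, y)) + c 0 (Sum.inl (j, z)) ≤ 0) :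
    ∃ w, IsFrac a b c w ∧ ∑ x, ∑ i, ∑ y, ∑ z, w x i y z = V₂ + p * n + C := by
  -- total weight of an arm
  set X : Fin (p + 1) → ℚ := fun j => ∑ x, ∑ y, ∑ z, x1 x j y z with hX
  have hXV : ∑ j, X j = V₁ := by
    rw [← hV1]
    simp only [hX]
    rw [Finset.sum_comm]
  have hX0 : ∀ j, 0 ≤ X j := fun j =>
    sum_nonneg fun _ _ => sum_nonneg fun _ _ => sum_nonneg fun _ _ => hx1.nonneg _ _ _ _
  have hXle : ∀ j, X j ≤ V₁ := by
    intro j
    rw [← hXV]
    exact Finset.single_le_sum (f := X) (fun j _ => hX0 j) (mem_univ j)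
  have hnX : ∀ j, 0 < n - X j := fun j => by linarith [hXle j]
  -- leftovers
  set r0 : A0 → ℚ := fun u => 1 - ∑ j, ∑ y, ∑ z, x1 u j y z with hr0
  set r1 : A1 → ℚ := fun v => 1 - ∑ j, ∑ y, ∑ z, x2 v j y z with hr1
  set rB : Fin (p + 1) → τ → ℚ := fun j y => 1 - ∑ u, ∑ z, x1 u j y z with hrB
  set rC : Fin (p + 1) → τ → ℚ := fun j z => 1 - ∑ u, ∑ y, x1 u j y z with hrC
  have s0 : ∑ u, r0 u = Fintype.card A0 - V₁ := by
    simp only [hr0, Finset.sum_sub_distrib, hV1]
    simp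
  have s1 : ∑ v, r1 v = Fintype.card A1 - V₂ := by
    simp only [hr1, Finset.sum_sub_distrib, hV2]
    simp
  have sB : ∀ j, ∑ y, rB j y = n - X j := by
    intro j
    simp only [hrB, Finset.sum_sub_distrib, hX, hn]
    rw [Finset.sum_comm]
    simp
  have sC : ∀ j, ∑ y, rC j y = n - X j := by
    intro j
    simp only [hrC, Finset.sum_sub_distrib, hX, hn]
    rw [Finset.sum_comm]
    simp only [sum_const, card_univ, nsmul_eq_mul, mul_one, sub_right_inj]
    refine sum_congr rfl fun u _ => ?_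
    rw [Finset.sum_comm]
  have n0 : ∀ u, 0 ≤ r0 u := fun u => by simp only [hr0]; linarith [hx1.le1 u]
  have n1 : ∀ u, 0 ≤ r1 u := fun u => by simp only [hr1]; linarith [hx2.le1 u]
  have nB : ∀ j y, 0 ≤ rB j y := fun j y => by simp only [hrB]; linarith [hx1.le2 j y]
  have nC : ∀ j y, 0 ≤ rC j y := fun j y => by simp only [hrC]; linarith [hx1.le3 j y]
  set R0 : ℚ := Fintype.card A0 - V₁ with hR0d
  set R1 : ℚ := Fintype.card A1 - V₂ with hR1d
  have hnC : 0 ≤ n - C := by linarith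
  have t0 : ∑ u, r0 u / R0 = 1 := by
    rw [← Finset.sum_div, s0, div_self hR0.ne']
  have t1 : ∑ u, r1 u / R1 = 1 := by
    rw [← Finset.sum_div, s1, div_self hR1.ne']
  have tB : ∀ j, ∑ y, rB j y / (n - X j) = 1 := fun j => by
    rw [← Finset.sum_div, sB, div_self (hnX j).ne']
  have tC : ∀ j, ∑ y, rC j y / (n - X j) = 1 := fun j => by
    rw [← Finset.sum_div, sC, div_self (hnX j).ne']
  have hM1row : ∀ j : Fin (p + 1), ∑ k : Fin (p + 1), (if j = k then C - X j else 0) = C - X j := by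
    intro j
    simp
  have hM1col : ∀ k : Fin (p + 1), ∑ j : Fin (p + 1), (if j = k then C - X j else 0) = C - X k := by
    intro k
    simp
  have hM1tot : ∑ j : Fin (p + 1), ∑ k : Fin (p + 1), (if j = k then C - X j else 0) = R1 := by
    simp only [hM1row, Finset.sum_sub_distrib, hXV]
    simp only [sum_const, card_univ, Fintype.card_fin, nsmul_eq_mul]
    push_cast
    rw [hC, hR1d]
    ring
  refine ⟨nw x1 x2 (fun u => r0 u / R0) (fun v => r1 v / R1) (fun j y => rB j y / (n - X j))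
    (fun j y => rC j y / (n - X j)) (fun j k => if (j : ℕ) = k + 1 then n - C else 0)
    (fun j k => if j = k then C - X j else 0), ?_, ?_⟩
  · apply nw_isFrac_aux t0 t1 tB tC
    · exact fun u => div_nonneg (n0 u) hR0.le
    · exact fun u => div_nonneg (n1 u) hR1.le
    · exact fun j y => div_nonneg (nB j y) (hnX j).le
    · exact fun j y => div_nonneg (nC j y) (hnX j).le
    · exact hx1.nonneg
    · exact hx2.nonneg
    · intro j k
      split_ifs
      · exact hnC
      · exact le_rfl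
    · intro j k
      split_ifs
      · linarith [hXle j]
      · exact le_rfl
    · intro u
      rw [M0_total]
      have h1 : r0 u / R0 * (p * (n - C)) ≤ r0 u := by
        rw [div_mul_eq_mul_div, div_le_iff₀ hR0]
        exact mul_le_mul_of_nonneg_left hR0' (n0 u)
      have h2 : ∑ j, ∑ y, ∑ z, x1 u j y z = 1 - r0 u := by simp only [hr0]; ring
      rw [h2]
      linarith
    · intro v
      rw [hM1tot, div_mul_cancel₀ _ hR1.ne']
      have h2 : ∑ j, ∑ y, ∑ z, x2 v j y z = 1 - r1 v := by simp only [hr1]; ring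
      rw [h2]
      linarith
    · intro j y
      rw [hM1row]
      have h2 : ∑ u, ∑ z, x1 u j y z = 1 - rB j y := by simp only [hrB]; ring
      rw [h2]
      have h3 := M0_row hnC j
      have h4 : rB j y / (n - X j) *
          (∑ k : Fin (p + 1), (if (j : ℕ) = k + 1 then n - C else 0) + (C - X j)) ≤ rB j y := by
        rw [div_mul_eq_mul_div, div_le_iff₀ (hnX j)]
        exact mul_le_mul_of_nonneg_left (by linarith) (nB j y)
      linarith
    · intro k z
      rw [hM1col]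
      have h2 : ∑ u, ∑ y, x1 u k y z = 1 - rC k z := by simp only [hrC]; ring
      rw [h2]
      have h3 := M0_col hnC k
      have h4 : rC k z / (n - X k) *
          (∑ j : Fin (p + 1), (if (j : ℕ) = k + 1 then n - C else 0) + (C - X k)) ≤ rC k z := by
        rw [div_mul_eq_mul_div, div_le_iff₀ (hnX k)]
        exact mul_le_mul_of_nonneg_left (by linarith) (nC k z)
      linarith
    · exact hx2.le2
    · exact hx2.le3
    · intro u j y z hne
      exact hu1 _ _ _ _ (hx1.use _ _ _ _ hne)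
    · intro v i y z hne
      exact hu2 _ _ _ _ (hx2.use _ _ _ _ hne)
    · intro u j y k z hne
      split_ifs at hne with hjk
      · exact hu3 _ _ _ _ _ hjk
      · exact absurd rfl hne
    · intro u j y k z hne
      split_ifs at hne with hjk
      · subst hjk
        exact hu4 _ _ _ _
      · exact absurd rfl hne
  · rw [nw_total t0 t1 tB tC, hV1, hV2, M0_total, hM1tot, hR1d]
    linear_combination (-1 : ℚ) * hC

end Vale.Agent.P302.Star
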