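import Vale.Agent.P302.H320.Star

/-!
# The integral half of the recursion for star worlds
-/

namespace Vale.Agent.P302.Star

open Finset

variable {q K : ℕ} {α₁ β₁ α₂ β₂ : Type} {g h e : ℕ}

/-- prices (times `q`) -/
def pa : NA α₁ α₂ g h → ℕ := Sum.elim (fun _ => 0) (fun _ => 1)

def pb : Fin (K + 1) → NB β₁ β₂ q e → ℕ :=
  Fin.cases (Sum.elim (fun u => (u.1 : ℕ)) (fun _ => 0)) (fun _ _ => 0)

def pc : Fin (K + 1) → NB β₁ β₂ q e → ℕ :=
  Fin.cases (Sum.elim (fun u => q - 1 - (u.1 : ℕ)) (fun _ => 0)) (fun _ _ => 0)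

def pr (t : Pat (K + 1) (NA α₁ α₂ g h) (NB β₁ β₂ q e)) : ℕ :=
  pa t.1 + pb t.2.1 t.2.2.1 + pc t.2.1 t.2.2.2

/-- patterns of the first child -/
def emb1 (s : Pat q α₁ β₁) : Pat (K + 1) (NA α₁ α₂ g h) (NB β₁ β₂ q e) :=
  (Sum.inl (Sum.inl s.1), 0, Sum.inl (s.2.1, Sum.inl s.2.2.1), Sum.inl (s.2.1, Sum.inl s.2.2.2))

/-- patterns of the second child -/
def emb2 (s : Pat K α₂ β₂) : Pat (K + 1) (NA α₁ α₂ g h) (NB β₁ β₂ q e) :=
  (Sum.inr (Sum.inl s.1), s.2.1.succ, Sum.inr s.2.2.1, Sum.inr s.2.2.2)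

theorem mulH {H : ℤ} (hH : 0 ≤ H) {j k : ℕ} (hjk : j < k) : 2 * H * j + 2 * H ≤ 2 * H * k := by
  have : (j : ℤ) + 1 ≤ k := by exact_mod_cast hjk
  nlinarith

theorem mulH' {H : ℤ} (hH : 0 ≤ H) {j k : ℕ} (hjk : j ≤ k) : 2 * H * j ≤ 2 * H * k := by
  have : (j : ℤ) ≤ k := by exact_mod_cast hjk
  nlinarith

section

variable {Φ : ℤ} {a₁ : α₁ → ℤ} {b₁ c₁ : Fin q → β₁ → ℤ} {a₂ : α₂ → ℤ} {b₂ c₂ : Fin K → β₂ → ℤ}

/-- all values of the children are between `-Φ` and `Φ` -/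
structure Bdd (Φ : ℤ) (a₁ : α₁ → ℤ) (b₁ c₁ : Fin q → β₁ → ℤ) (a₂ : α₂ → ℤ)
    (b₂ c₂ : Fin K → β₂ → ℤ) : Prop where
  pos : 0 ≤ Φ
  a1 : ∀ x, -Φ ≤ a₁ x ∧ a₁ x ≤ Φ
  b1 : ∀ i y, -Φ ≤ b₁ i y ∧ b₁ i y ≤ Φ
  c1 : ∀ i y, -Φ ≤ c₁ i y ∧ c₁ i y ≤ Φ
  a2 : ∀ x, -Φ ≤ a₂ x ∧ a₂ x ≤ Φ
  b2 : ∀ i y, -Φ ≤ b₂ i y ∧ b₂ i y ≤ Φ
  c2 : ∀ i y, -Φ ≤ c₂ i y ∧ c₂ i y ≤ Φ

theorem mic_bd {τ : Type} {n : ℕ} {v : τ → ℤ} (hΦ : 0 ≤ Φ) (hv : ∀ x, -Φ ≤ v x ∧ v x ≤ Φ)
    (u : τ ⊕ Fin n) : -Φ ≤ mic v Φ u ∧ mic v Φ u ≤ EE Φ ∧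
      ((∃ x, u = Sum.inl x ∧ mic v Φ u = v x) ∨ mic v Φ u = EE Φ) := by
  rcases u with x | x
  · have := hv x
    refine ⟨this.1, ?_, Or.inl ⟨x, rfl, rfl⟩⟩
    show v x ≤ EE Φ
    unfold EE; linarith
  · refine ⟨?_, le_rfl, Or.inr rfl⟩
    show -Φ ≤ EE Φ
    unfold EE; linarith

theorem use_cases (hB : Bdd Φ a₁ b₁ c₁ a₂ b₂ c₂)
    (t : Pat (K + 1) (NA α₁ α₂ g h) (NB β₁ β₂ q e))
    (ht : Use (na Φ a₁ a₂) (nb Φ b₁ b₂) (nc Φ c₁ c₂) t) :
    q ≤ pr t ∨ (∃ s : Pat q α₁ β₁, emb1 s = t ∧ Use a₁ b₁ c₁ s ∧ q ≤ pr t + 1) ∨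
      (∃ s : Pat K α₂ β₂, emb2 s = t ∧ Use a₂ b₂ c₂ s ∧ q ≤ pr t + (q - 1)) := by
  obtain ⟨x, i, y, z⟩ := t
  have hΦ := hB.pos
  have hE : EE Φ = 2 * Φ + 1 := rfl
  have hH : HH Φ = 3 * EE Φ + 1 := rfl
  have hH0 : 0 ≤ HH Φ := by linarith
  have hD : DD q Φ = 2 * HH Φ * q + 2 * HH Φ := by unfold DD; ring
  have ha : -HH Φ - Φ ≤ na Φ a₁ a₂ x := by
    rcases x with x | x
    · have := (mic_bd hΦ hB.a1 x).1
      show -HH Φ - Φ ≤ mic a₁ Φ x
      linarith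
    · have := (mic_bd hΦ hB.a2 x).1
      show -HH Φ - Φ ≤ mic a₂ Φ x - HH Φ
      linarith
  induction i using Fin.cases with
  | zero =>
    rcases y with ⟨j, u⟩ | y
    · have hu := mic_bd (n := e) hΦ (hB.b1 j) u
      have hj : (j : ℕ) + 1 ≤ q := j.isLt
      have hj' : 2 * HH Φ * (j : ℕ) + 2 * HH Φ ≤ 2 * HH Φ * q := by
        have := mulH hH0 j.isLt
        exact this
      rcases z with ⟨k, v⟩ | z
      · have hv := mic_bd (n := e) hΦ (hB.c1 k) v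
        have hk : (k : ℕ) + 1 ≤ q := k.isLt
        change na Φ a₁ a₂ x + (mic (b₁ j) Φ u - 2 * HH Φ * (j : ℕ)) +
          (mic (c₁ k) Φ v + 2 * HH Φ * (k : ℕ)) ≤ 0 at ht
        have hpr : pr (K := K) ((x, 0, Sum.inl (j, u), Sum.inl (k, v)) :
            Pat (K + 1) (NA α₁ α₂ g h) (NB β₁ β₂ q e)) = pa x + j + (q - 1 - k) := rfl
        rcases lt_trichotomy (k : ℕ) (j : ℕ) with hkj | hkj | hkj
        · left
          rw [hpr]
          omega
        · rcases x with x | x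
          · right; left
            have hx := mic_bd (n := h) hΦ hB.a1 x
            change mic a₁ Φ x + _ + _ ≤ 0 at ht
            have hkj' : k = j := Fin.ext hkj
            subst hkj'
            obtain ⟨x', rfl, hx'⟩ : ∃ x', x = Sum.inl x' ∧ mic a₁ Φ x = a₁ x' := by
              rcases hx.2.2 with h1 | h1
              · exact h1
              · exfalso; linarith [hx.1, hu.1, hv.1]
            obtain ⟨u', rfl, hu'⟩ : ∃ x', u = Sum.inl x' ∧ mic (b₁ k) Φ u = b₁ k x' := by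
              rcases hu.2.2 with h1 | h1
              · exact h1
              · exfalso; linarith [hx.1, hu.1, hv.1]
            obtain ⟨v', rfl, hv'⟩ : ∃ x', v = Sum.inl x' ∧ mic (c₁ k) Φ v = c₁ k x' := by
              rcases hv.2.2 with h1 | h1
              · exact h1
              · exfalso; linarith [hx.1, hu.1, hv.1]
            refine ⟨(x', k, u', v'), rfl, ?_, ?_⟩
            · show a₁ x' + b₁ k u' + c₁ k v' ≤ 0
              rw [hx', hu', hv'] at ht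
              linarith
            · rw [hpr]
              omega
          · left
            rw [hpr]
            have : pa (Sum.inr x : NA α₁ α₂ g h) = 1 := rfl
            omega
        · exfalso
          have := mulH hH0 hkj
          linarith [hu.1, hv.1]
      · exfalso
        change na Φ a₁ a₂ x + (mic (b₁ j) Φ u - 2 * HH Φ * (j : ℕ)) + DD q Φ ≤ 0 at ht
        linarith [hu.1]
    · exfalso
      rcases z with ⟨k, v⟩ | z
      · have hv := mic_bd (n := e) hΦ (hB.c1 k) v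
        change na Φ a₁ a₂ x + DD q Φ + (mic (c₁ k) Φ v + 2 * HH Φ * (k : ℕ)) ≤ 0 at ht
        have : 0 ≤ 2 * HH Φ * (k : ℕ) := by positivity
        have : 0 ≤ 2 * HH Φ * (q : ℕ) := by positivity
        linarith [hv.1]
      · change na Φ a₁ a₂ x + DD q Φ + DD q Φ ≤ 0 at ht
        have : 0 ≤ 2 * HH Φ * (q : ℕ) := by positivity
        linarith
  | succ i =>
    have hq0 : 0 ≤ 2 * HH Φ * (q : ℕ) := by positivity
    rcases y with u | y
    · exfalso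
      rcases z with v | z
      · change na Φ a₁ a₂ x + DD q Φ + DD q Φ ≤ 0 at ht
        linarith
      · have hz := hB.c2 i z
        change na Φ a₁ a₂ x + DD q Φ + c₂ i z ≤ 0 at ht
        linarith
    · have hy := hB.b2 i y
      rcases z with v | z
      · exfalso
        change na Φ a₁ a₂ x + (b₂ i y + HH Φ) + DD q Φ ≤ 0 at ht
        linarith
      · have hz := hB.c2 i z
        change na Φ a₁ a₂ x + (b₂ i y + HH Φ) + c₂ i z ≤ 0 at ht
        have hpr : pr (q := q) (e := e) (β₁ := β₁) ((x, i.succ, Sum.inr y, Sum.inr z) :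
            Pat (K + 1) (NA α₁ α₂ g h) (NB β₁ β₂ q e)) = pa x + 0 + 0 := rfl
        rcases x with x | x
        · exfalso
          have hx := mic_bd (n := h) hΦ hB.a1 x
          change mic a₁ Φ x + _ + _ ≤ 0 at ht
          linarith [hx.1]
        · right; right
          have hx := mic_bd (n := g) hΦ hB.a2 x
          change mic a₂ Φ x - HH Φ + _ + _ ≤ 0 at ht
          obtain ⟨x', rfl, hx'⟩ : ∃ x', x = Sum.inl x' ∧ mic a₂ Φ x = a₂ x' := by
            rcases hx.2.2 with h1 | h1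
            · exact h1
            · exfalso; linarith
          refine ⟨(x', i, y, z), rfl, ?_, ?_⟩
          · show a₂ x' + b₂ i y + c₂ i z ≤ 0
            rw [hx'] at ht
            linarith
          · rw [hpr]
            have : pa (Sum.inr (Sum.inl x') : NA α₁ α₂ g h) = 1 := rfl
            omega

theorem emb1_inj : Function.Injective
    (emb1 : Pat q α₁ β₁ → Pat (K + 1) (NA α₁ α₂ g h) (NB β₁ β₂ q e)) := by
  rintro ⟨x, i, y, z⟩ ⟨x', i', y', z'⟩ hh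
  simp only [emb1, Prod.mk.injEq, Sum.inl.injEq] at hh
  obtain ⟨h1, _, ⟨h2, h3⟩, _, h4⟩ := hh
  subst h1; subst h2; subst h3; subst h4
  rfl

theorem emb2_inj : Function.Injective
    (emb2 : Pat K α₂ β₂ → Pat (K + 1) (NA α₁ α₂ g h) (NB β₁ β₂ q e)) := by
  rintro ⟨x, i, y, z⟩ ⟨x', i', y', z'⟩ hh
  simp only [emb2, Prod.mk.injEq, Sum.inr.injEq, Sum.inl.injEq, Fin.succ_inj] at hh
  obtain ⟨h1, h2, h3, h4⟩ := hh
  subst h1; subst h2; subst h3; subst h4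
  rfl

open Classical in
theorem int_half [Fintype α₁] [Fintype β₁] [Fintype α₂] [Fintype β₂]
    (hB : Bdd Φ a₁ b₁ c₁ a₂ b₂ c₂) {T₁ T₂ : ℕ}
    (H1 : ∀ S : Finset (Pat q α₁ β₁), IsPack a₁ b₁ c₁ S → S.card ≤ T₁)
    (H2 : ∀ S : Finset (Pat K α₂ β₂), IsPack a₂ b₂ c₂ S → S.card ≤ T₂)
    (S : Finset (Pat (K + 1) (NA α₁ α₂ g h) (NB β₁ β₂ q e)))
    (hS : IsPack (na Φ a₁ a₂) (nb Φ b₁ b₂) (nc Φ c₁ c₂) S) :
    q * S.card ≤ (Fintype.card α₂ + g) + q * (q - 1) * (Fintype.card β₁ + e) + T₁ +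
      (q - 1) * T₂ := by
  set S₁ : Finset (Pat q α₁ β₁) := univ.filter (fun s => emb1 s ∈ S) with hS₁
  set S₂ : Finset (Pat K α₂ β₂) := univ.filter (fun s => emb2 s ∈ S) with hS₂
  have hc1 : S₁.card ≤ T₁ := by
    refine H1 S₁ ⟨?_, ?_, ?_, ?_⟩
    · intro t ht
      have := hS.use _ (mem_filter.1 ht).2
      change a₁ t.1 + (b₁ t.2.1 t.2.2.1 - 2 * HH Φ * (t.2.1 : ℕ)) +
        (c₁ t.2.1 t.2.2.2 + 2 * HH Φ * (t.2.1 : ℕ)) ≤ 0 at this
      show a₁ t.1 + b₁ t.2.1 t.2.2.1 + c₁ t.2.1 t.2.2.2 ≤ 0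
      linarith
    · intro t ht t' ht' hh
      apply emb1_inj (K := K) (α₂ := α₂) (β₂ := β₂) (g := g) (h := h) (e := e)
      refine hS.inj1 _ (mem_filter.1 ht).2 _ (mem_filter.1 ht').2 ?_
      simp [emb1, hh]
    · intro t ht t' ht' h1 h2
      apply emb1_inj (K := K) (α₂ := α₂) (β₂ := β₂) (g := g) (h := h) (e := e)
      refine hS.inj2 _ (mem_filter.1 ht).2 _ (mem_filter.1 ht').2 rfl ?_
      simp [emb1, h1, h2]
    · intro t ht t' ht' h1 h2
      apply emb1_inj (K := K) (α₂ := α₂) (β₂ := β₂) (g := g) (h := h) (e := e)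
      refine hS.inj3 _ (mem_filter.1 ht).2 _ (mem_filter.1 ht').2 rfl ?_
      simp [emb1, h1, h2]
  have hc2 : S₂.card ≤ T₂ := by
    refine H2 S₂ ⟨?_, ?_, ?_, ?_⟩
    · intro t ht
      have := hS.use _ (mem_filter.1 ht).2
      change (a₂ t.1 - HH Φ) + (b₂ t.2.1 t.2.2.1 + HH Φ) + c₂ t.2.1 t.2.2.2 ≤ 0 at this
      show a₂ t.1 + b₂ t.2.1 t.2.2.1 + c₂ t.2.1 t.2.2.2 ≤ 0
      linarith
    · intro t ht t' ht' hh
      apply emb2_inj (q := q) (α₁ := α₁) (β₁ := β₁) (g := g) (h := h) (e := e)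
      refine hS.inj1 _ (mem_filter.1 ht).2 _ (mem_filter.1 ht').2 ?_
      simp [emb2, hh]
    · intro t ht t' ht' h1 h2
      apply emb2_inj (q := q) (α₁ := α₁) (β₁ := β₁) (g := g) (h := h) (e := e)
      refine hS.inj2 _ (mem_filter.1 ht).2 _ (mem_filter.1 ht').2 ?_ ?_
      · simp [emb2, h1]
      · simp [emb2, h2]
    · intro t ht t' ht' h1 h2
      apply emb2_inj (q := q) (α₁ := α₁) (β₁ := β₁) (g := g) (h := h) (e := e)
      refine hS.inj3 _ (mem_filter.1 ht).2 _ (mem_filter.1 ht').2 ?_ ?_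
      · simp [emb2, h1]
      · simp [emb2, h2]
  -- counting
  have hsum : q * S.card ≤ ∑ t ∈ S, pr t +
      (S₁.image (emb1 (K := K) (α₂ := α₂) (β₂ := β₂) (g := g) (h := h) (e := e))).card +
      (q - 1) *
        (S₂.image (emb2 (q := q) (α₁ := α₁) (β₁ := β₁) (g := g) (h := h) (e := e))).card := by
    have e1 : (S₁.image (emb1 (K := K) (α₂ := α₂) (β₂ := β₂) (g := g) (h := h) (e := e))).card
        = ∑ t ∈ S, if t ∈ S₁.image emb1 then 1 else 0 := by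
      rw [Finset.sum_boole, Nat.cast_id]
      congr 1
      ext t
      simp only [mem_image, mem_filter, hS₁, mem_univ, true_and]
      constructor
      · rintro ⟨s, hs, rfl⟩
        exact ⟨hs, s, hs, rfl⟩
      · rintro ⟨_, s, hs, rfl⟩
        exact ⟨s, hs, rfl⟩
    have e2 : (S₂.image (emb2 (q := q) (α₁ := α₁) (β₁ := β₁) (g := g) (h := h) (e := e))).card
        = ∑ t ∈ S, if t ∈ S₂.image emb2 then 1 else 0 := by
      rw [Finset.sum_boole, Nat.cast_id]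
      congr 1
      ext t
      simp only [mem_image, mem_filter, hS₂, mem_univ, true_and]
      constructor
      · rintro ⟨s, hs, rfl⟩
        exact ⟨hs, s, hs, rfl⟩
      · rintro ⟨_, s, hs, rfl⟩
        exact ⟨s, hs, rfl⟩
    rw [e1, e2, mul_sum, ← sum_add_distrib, ← sum_add_distrib, mul_comm, ← smul_eq_mul,
      ← sum_const]
    refine sum_le_sum fun t ht => ?_
    rcases use_cases hB t (hS.use t ht) with h1 | ⟨s, hs, _, h1⟩ | ⟨s, hs, _, h1⟩
    · omega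
    · have : t ∈ S₁.image emb1 := by
        rw [mem_image]
        exact ⟨s, by rw [hS₁, mem_filter]; exact ⟨mem_univ _, by rw [hs]; exact ht⟩, hs⟩
      rw [if_pos this]
      omega
    · have : t ∈ S₂.image emb2 := by
        rw [mem_image]
        exact ⟨s, by rw [hS₂, mem_filter]; exact ⟨mem_univ _, by rw [hs]; exact ht⟩, hs⟩
      rw [if_pos this]
      omega
  have hp1 : ∑ t ∈ S, pa t.1 ≤ Fintype.card α₂ + g := by
    have h1 : ∑ t ∈ S, pa t.1 = ∑ x ∈ S.image (fun t => t.1), pa x := by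
      rw [sum_image]
      intro t ht t' ht' hh
      exact hS.inj1 t ht t' ht' hh
    rw [h1]
    refine (sum_le_sum_of_subset (subset_univ _)).trans ?_
    rw [Fintype.sum_sum_type]
    simp [pa]
  have hp2 : ∑ t ∈ S, pb t.2.1 t.2.2.1 ≤ ∑ j : Fin q, (Fintype.card β₁ + e) * (j : ℕ) := by
    have h1 : ∑ t ∈ S, pb t.2.1 t.2.2.1 =
        ∑ x ∈ S.image (fun t => (t.2.1, t.2.2.1)), pb x.1 x.2 := by
      rw [sum_image]
      intro t ht t' ht' hh
      simp only [Prod.mk.injEq] at hh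
      exact hS.inj2 t ht t' ht' hh.1 hh.2
    rw [h1]
    refine (sum_le_sum_of_subset (subset_univ _)).trans ?_
    rw [Fintype.sum_prod_type, Fin.sum_univ_succ, Fintype.sum_sum_type]
    simp [pb, Fintype.sum_prod_type]
  have hp3 : ∑ t ∈ S, pc t.2.1 t.2.2.2 ≤ ∑ j : Fin q, (Fintype.card β₁ + e) * (q - 1 - (j : ℕ)) := by
    have h1 : ∑ t ∈ S, pc t.2.1 t.2.2.2 =
        ∑ x ∈ S.image (fun t => (t.2.1, t.2.2.2)), pc x.1 x.2 := by
      rw [sum_image]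
      intro t ht t' ht' hh
      simp only [Prod.mk.injEq] at hh
      exact hS.inj3 t ht t' ht' hh.1 hh.2
    rw [h1]
    refine (sum_le_sum_of_subset (subset_univ _)).trans ?_
    rw [Fintype.sum_prod_type, Fin.sum_univ_succ, Fintype.sum_sum_type]
    simp [pc, Fintype.sum_prod_type]
  have hp23 : ∑ j : Fin q, (Fintype.card β₁ + e) * (j : ℕ) +
      ∑ j : Fin q, (Fintype.card β₁ + e) * (q - 1 - (j : ℕ)) = q * (q - 1) * (Fintype.card β₁ + e) := by
    rw [← sum_add_distrib]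
    have : ∀ j : Fin q, (Fintype.card β₁ + e) * (j : ℕ) + (Fintype.card β₁ + e) * (q - 1 - (j : ℕ))
        = (Fintype.card β₁ + e) * (q - 1) := by
      intro j
      have := j.isLt
      rw [← Nat.mul_add]
      congr 1
      omega
    rw [sum_congr rfl fun j _ => this j, sum_const, card_univ, Fintype.card_fin, smul_eq_mul]
    ring
  have hpr : ∑ t ∈ S, pr t = ∑ t ∈ S, pa t.1 + ∑ t ∈ S, pb t.2.1 t.2.2.1 +
      ∑ t ∈ S, pc t.2.1 t.2.2.2 := by
    rw [← sum_add_distrib, ← sum_add_distrib]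
    rfl
  have hi1 : (S₁.image (emb1 (K := K) (α₂ := α₂) (β₂ := β₂) (g := g) (h := h) (e := e))).card ≤ T₁ :=
    card_image_le.trans hc1
  have hi2 : (S₂.image (emb2 (q := q) (α₁ := α₁) (β₁ := β₁) (g := g) (h := h) (e := e))).card ≤ T₂ :=
    card_image_le.trans hc2
  have hi3 := Nat.mul_le_mul_left (q - 1) hi2
  rw [hpr] at hsum
  omega

end

end Vale.Agent.P302.Star
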