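import Mathlib

/-!
# Star worlds (P302): unbounded deficiency

One class `α` of items and `K` pairs of classes (arms); the items of every class of an arm are
indexed by `β`.  A pattern `(x, i, y, z)` takes the item `x` of the common class and the items
`y`, `z` of the two classes of the arm `i`; it is usable if `a x + b i y + c i z ≤ 0`.
-/

namespace Vale.Agent.P302.Star

/-- patterns: item of the common class, arm, item of the first and of the second class -/
abbrev Pat (K : ℕ) (α β : Type) := α × Fin K × β × β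

variable {K : ℕ} {α β : Type}

/-- usable pattern -/
def Use (a : α → ℤ) (b c : Fin K → β → ℤ) (t : Pat K α β) : Prop :=
  a t.1 + b t.2.1 t.2.2.1 + c t.2.1 t.2.2.2 ≤ 0

/-- a set of pairwise disjoint usable patterns -/
structure IsPack (a : α → ℤ) (b c : Fin K → β → ℤ) (S : Finset (Pat K α β)) : Prop where
  use : ∀ t ∈ S, Use a b c t
  inj1 : ∀ t ∈ S, ∀ t' ∈ S, t.1 = t'.1 → t = t'
  inj2 : ∀ t ∈ S, ∀ t' ∈ S, t.2.1 = t'.2.1 → t.2.2.1 = t'.2.2.1 → t = t'
  inj3 : ∀ t ∈ S, ∀ t' ∈ S, t.2.1 = t'.2.1 → t.2.2.2 = t'.2.2.2 → t = t'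

/-- a fractional packing -/
structure IsFrac [Fintype α] [Fintype β] (a : α → ℤ) (b c : Fin K → β → ℤ)
    (w : α → Fin K → β → β → ℚ) : Prop where
  nonneg : ∀ x i y z, 0 ≤ w x i y z
  use : ∀ x i y z, w x i y z ≠ 0 → a x + b i y + c i z ≤ 0
  le1 : ∀ x, ∑ i, ∑ y, ∑ z, w x i y z ≤ 1
  le2 : ∀ i y, ∑ x, ∑ z, w x i y z ≤ 1
  le3 : ∀ i z, ∑ x, ∑ y, w x i y z ≤ 1

/-- there is an instance with `K` arms in which at most `T` usable patterns are pairwise disjoint,
but which has a fractional packing of total weight `V` -/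
def SDef (K T : ℕ) (V : ℚ) : Prop :=
  ∃ (α β : Type) (_ : Fintype α) (_ : Fintype β) (a : α → ℤ) (b c : Fin K → β → ℤ)
    (w : α → Fin K → β → β → ℚ),
    (∀ S : Finset (Pat K α β), IsPack a b c S → S.card ≤ T) ∧ IsFrac a b c w ∧
      ∑ x, ∑ i, ∑ y, ∑ z, w x i y z = V

theorem sdef_zero (K : ℕ) : SDef K 0 0 := by
  refine ⟨Empty, Empty, inferInstance, inferInstance, fun _ => 0, fun _ _ => 0, fun _ _ => 0,
    fun _ _ _ _ => 0, ?_, ⟨?_, ?_, ?_, ?_, ?_⟩, ?_⟩
  · intro S _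
    have : S = ∅ := Finset.eq_empty_of_forall_notMem fun t _ => t.1.elim
    simp [this]
  all_goals simp

/-! ### The node -/

section Node

variable {q K : ℕ} {α₁ β₁ α₂ β₂ : Type} (g h e : ℕ) (Φ : ℤ)

/-- value of the additional items (useless in exact patterns) -/
def EE (Φ : ℤ) : ℤ := 2 * Φ + 1
/-- half the distance of two coarse values -/
def HH (Φ : ℤ) : ℤ := 3 * EE Φ + 1
/-- value of items that are never usable -/
def DD (q : ℕ) (Φ : ℤ) : ℤ := 2 * HH Φ * (q + 1)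

/-- items of the common class of the node: those of the first child with `h` additional ones
(price `0`), those of the second child with `g` additional ones (price `1`) -/
abbrev NA (α₁ α₂ : Type) (g h : ℕ) := (α₁ ⊕ Fin h) ⊕ (α₂ ⊕ Fin g)

/-- items of the other classes of the node -/
abbrev NB (β₁ β₂ : Type) (q e : ℕ) := (Fin q × (β₁ ⊕ Fin e)) ⊕ β₂

variable {g h e}

/-- micro value -/
def mic {τ : Type} {n : ℕ} (v : τ → ℤ) (Φ : ℤ) : τ ⊕ Fin n → ℤ := Sum.elim v (fun _ => EE Φ)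

/-- values of the common class -/
def na (a₁ : α₁ → ℤ) (a₂ : α₂ → ℤ) : NA α₁ α₂ g h → ℤ :=
  Sum.elim (mic a₁ Φ) (fun u => mic a₂ Φ u - HH Φ)

/-- values of the first classes of the arms -/
def nb (b₁ : Fin q → β₁ → ℤ) (b₂ : Fin K → β₂ → ℤ) : Fin (K + 1) → NB β₁ β₂ q e → ℤ :=
  Fin.cases (Sum.elim (fun u => mic (b₁ u.1) Φ u.2 - 2 * HH Φ * (u.1 : ℕ)) (fun _ => DD q Φ))
    (fun i => Sum.elim (fun _ => DD q Φ) (fun y => b₂ i y + HH Φ))

/-- values of the second classes of the arms -/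
def nc (c₁ : Fin q → β₁ → ℤ) (c₂ : Fin K → β₂ → ℤ) : Fin (K + 1) → NB β₁ β₂ q e → ℤ :=
  Fin.cases (Sum.elim (fun u => mic (c₁ u.1) Φ u.2 + 2 * HH Φ * (u.1 : ℕ)) (fun _ => DD q Φ))
    (fun i => Sum.elim (fun _ => DD q Φ) (fun z => c₂ i z))

end Node

end Vale.Agent.P302.Star
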