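import Vale.Agent.P302.H320.IntHalf
import Vale.Agent.P302.H320.FracNode

/-!
# The recursion for star worlds
-/

namespace Vale.Agent.P302.Star

open Finset

section Ext

variable {q : ℕ} {α β : Type}

/-- extension by zero to additional items -/
def ext1 (h e : ℕ) (w : α → Fin q → β → β → ℚ) :
    α ⊕ Fin h → Fin q → β ⊕ Fin e → β ⊕ Fin e → ℚ
  | Sum.inl x, j, Sum.inl y, Sum.inl z => w x j y z
  | _, _, _, _ => 0

theorem ext1_frac [Fintype α] [Fintype β] {a : α → ℤ} {b c : Fin q → β → ℤ}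
    {w : α → Fin q → β → β → ℚ} (hw : IsFrac a b c w) (h e : ℕ) (Φ : ℤ) :
    IsFrac (mic (n := h) a Φ) (fun j => mic (n := e) (b j) Φ) (fun j => mic (n := e) (c j) Φ)
      (ext1 h e w) := by
  refine ⟨?_, ?_, ?_, ?_, ?_⟩
  · rintro (x | x) j (y | y) (z | z) <;> simp only [ext1, le_refl]
    exact hw.nonneg _ _ _ _
  · rintro (x | x) j (y | y) (z | z) hne <;> simp only [ext1, ne_eq, not_true_eq_false] at hne
    exact hw.use _ _ _ _ hne
  · rintro (x | x)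
    · simpa [ext1, Fintype.sum_sum_type] using hw.le1 x
    · simp [ext1]
  · rintro j (y | y)
    · simpa [ext1, Fintype.sum_sum_type] using hw.le2 j y
    · simp [ext1]
  · rintro j (z | z)
    · simpa [ext1, Fintype.sum_sum_type] using hw.le3 j z
    · simp [ext1]

theorem ext1_total [Fintype α] [Fintype β] (w : α → Fin q → β → β → ℚ) (h e : ℕ) :
    ∑ x, ∑ i, ∑ y, ∑ z, ext1 h e w x i y z = ∑ x, ∑ i, ∑ y, ∑ z, w x i y z := by
  simp [ext1, Fintype.sum_sum_type]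

/-- extension by zero, second child -/
def ext2 (g : ℕ) (w : α → Fin q → β → β → ℚ) : α ⊕ Fin g → Fin q → β → β → ℚ
  | Sum.inl x, j, y, z => w x j y z
  | Sum.inr _, _, _, _ => 0

theorem ext2_frac [Fintype α] [Fintype β] {a : α → ℤ} {b c : Fin q → β → ℤ}
    {w : α → Fin q → β → β → ℚ} (hw : IsFrac a b c w) (g : ℕ) (Φ : ℤ) :
    IsFrac (mic (n := g) a Φ) b c (ext2 g w) := by
  refine ⟨?_, ?_, ?_, ?_, ?_⟩
  · rintro (x | x) j y z <;> simp only [ext2, le_refl]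
    exact hw.nonneg _ _ _ _
  · rintro (x | x) j y z hne <;> simp only [ext2, ne_eq, not_true_eq_false] at hne
    exact hw.use _ _ _ _ hne
  · rintro (x | x)
    · simpa [ext2] using hw.le1 x
    · simp [ext2]
  · intro j y
    simpa [ext2, Fintype.sum_sum_type] using hw.le2 j y
  · intro j z
    simpa [ext2, Fintype.sum_sum_type] using hw.le3 j z

theorem ext2_total [Fintype α] [Fintype β] (w : α → Fin q → β → β → ℚ) (g : ℕ) :
    ∑ x, ∑ i, ∑ y, ∑ z, ext2 g w x i y z = ∑ x, ∑ i, ∑ y, ∑ z, w x i y z := by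
  simp [ext2, Fintype.sum_sum_type]

end Ext

theorem exists_abs_le {ι : Type} [Fintype ι] (f : ι → ℤ) :
    ∃ Φ : ℤ, 0 ≤ Φ ∧ ∀ x, |f x| ≤ Φ := by
  refine ⟨∑ x, |f x|, sum_nonneg fun _ _ => abs_nonneg _, fun x => ?_⟩
  exact Finset.single_le_sum (f := fun x => |f x|) (fun _ _ => abs_nonneg _) (mem_univ x)

theorem exists_bdd {q K : ℕ} {α₁ β₁ α₂ β₂ : Type} [Fintype α₁] [Fintype β₁] [Fintype α₂]
    [Fintype β₂] (a₁ : α₁ → ℤ) (b₁ c₁ : Fin q → β₁ → ℤ) (a₂ : α₂ → ℤ)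
    (b₂ c₂ : Fin K → β₂ → ℤ) : ∃ Φ : ℤ, Bdd Φ a₁ b₁ c₁ a₂ b₂ c₂ := by
  obtain ⟨A, hA, hA'⟩ := exists_abs_le a₁
  obtain ⟨B, hB, hB'⟩ := exists_abs_le (fun t : Fin q × β₁ => b₁ t.1 t.2)
  obtain ⟨C, hC, hC'⟩ := exists_abs_le (fun t : Fin q × β₁ => c₁ t.1 t.2)
  obtain ⟨D, hD, hD'⟩ := exists_abs_le a₂
  obtain ⟨E, hE, hE'⟩ := exists_abs_le (fun t : Fin K × β₂ => b₂ t.1 t.2)
  obtain ⟨F, hF, hF'⟩ := exists_abs_le (fun t : Fin K × β₂ => c₂ t.1 t.2)
  refine ⟨A + B + C + D + E + F, by positivity, ?_, ?_, ?_, ?_, ?_, ?_⟩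
  · intro x
    have := abs_le.1 (hA' x)
    constructor <;> linarith [this.1, this.2]
  · intro i y
    have := abs_le.1 (hB' (i, y))
    constructor <;> linarith [this.1, this.2]
  · intro i y
    have := abs_le.1 (hC' (i, y))
    constructor <;> linarith [this.1, this.2]
  · intro x
    have := abs_le.1 (hD' x)
    constructor <;> linarith [this.1, this.2]
  · intro i y
    have := abs_le.1 (hE' (i, y))
    constructor <;> linarith [this.1, this.2]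
  · intro i y
    have := abs_le.1 (hF' (i, y))
    constructor <;> linarith [this.1, this.2]

theorem step {q K : ℕ} (hq : 2 ≤ q) {T₁ T₂ : ℕ} {V₁ V₂ : ℚ} (h1 : SDef q T₁ V₁)
    (h2 : SDef K T₂ V₂) :
    ∃ T V, SDef (K + 1) T V ∧
      V - T = (1 - 1 / (q : ℚ)) + (V₁ - T₁) / q + (1 - 1 / (q : ℚ)) * (V₂ - T₂) := by
  obtain ⟨p, rfl⟩ : ∃ p, q = p + 1 := ⟨q - 1, by omega⟩
  obtain ⟨α₁, β₁, _, _, a₁, b₁, c₁, w₁, hT1, hw1, hV1⟩ := h1
  obtain ⟨α₂, β₂, _, _, a₂, b₂, c₂, w₂, hT2, hw2, hV2⟩ := h2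
  obtain ⟨Φ, hB⟩ := exists_bdd a₁ b₁ c₁ a₂ b₂ c₂
  have hV1' : 0 ≤ V₁ := by
    rw [← hV1]
    exact sum_nonneg fun _ _ => sum_nonneg fun _ _ => sum_nonneg fun _ _ => sum_nonneg
      fun _ _ => hw1.nonneg _ _ _ _
  have hV2' : 0 ≤ V₂ := by
    rw [← hV2]
    exact sum_nonneg fun _ _ => sum_nonneg fun _ _ => sum_nonneg fun _ _ => sum_nonneg
      fun _ _ => hw2.nonneg _ _ _ _
  -- parameters
  obtain ⟨G, hG⟩ := exists_nat_ge (V₁ + V₂ + 1)
  obtain ⟨P, hP⟩ : ∃ P, P = Fintype.card α₂ + T₁ + p * T₂ := ⟨_, rfl⟩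
  obtain ⟨s, hs⟩ : ∃ s, s = P + G := ⟨_, rfl⟩
  obtain ⟨g, hg⟩ : ∃ g, g + P = (p + 1) * s + p := by
    refine ⟨(p + 1) * s + p - P, Nat.sub_add_cancel ?_⟩
    have : 1 * s ≤ (p + 1) * s := Nat.mul_le_mul_right s (by omega)
    omega
  have hgG : p * s + G + p ≤ g := by
    have : (p + 1) * s = p * s + s := by ring
    omega
  obtain ⟨C, hC⟩ : ∃ C : ℚ, (p + 1) * C = Fintype.card (α₂ ⊕ Fin g) - V₂ + V₁ :=
    ⟨(Fintype.card (α₂ ⊕ Fin g) - V₂ + V₁) / (p + 1), by field_simp⟩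
  have hcard2 : (Fintype.card (α₂ ⊕ Fin g) : ℚ) = Fintype.card α₂ + g := by
    simp
  have hgQ : (g : ℚ) + P = (p + 1) * s + p := by exact_mod_cast hg
  have hPQ : (P : ℚ) = Fintype.card α₂ + T₁ + p * T₂ := by rw [hP]; push_cast; ring
  have hsQ : (s : ℚ) = P + G := by rw [hs]; push_cast; ring
  have hP0 : (0 : ℚ) ≤ P := by positivity
  have hp0 : (0 : ℚ) ≤ p := by positivity
  have hCV : V₁ ≤ C := by
    have h3 : (p + 1 : ℚ) * V₁ ≤ (p + 1) * C := by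
      rw [hC, hcard2]
      have h4 : (g : ℚ) = p * (P + G) + G + p := by
        have : (p + 1 : ℚ) * (P + G) = p * (P + G) + P + G := by ring
        rw [hsQ, this] at hgQ
        linarith
      have h5 : (p : ℚ) * V₁ ≤ p * (P + G) := mul_le_mul_of_nonneg_left (by linarith) hp0
      have h6 : (0 : ℚ) ≤ Fintype.card α₂ := by positivity
      nlinarith
    exact le_of_mul_le_mul_left h3 (by positivity)
  obtain ⟨e, he⟩ := exists_nat_gt C
  obtain ⟨n, hn⟩ : ∃ n : ℚ, n = Fintype.card (β₁ ⊕ Fin e) := ⟨_, rfl⟩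
  have hn' : n = Fintype.card β₁ + e := by rw [hn]; simp
  have hCn : C < n := by
    rw [hn']
    have : (0 : ℚ) ≤ Fintype.card β₁ := by positivity
    linarith
  obtain ⟨h, hh⟩ := exists_nat_ge (V₁ + 1 + p * (n - C))
  have hcard0 : (Fintype.card (α₁ ⊕ Fin h) : ℚ) = Fintype.card α₁ + h := by simp
  have hα0 : (0 : ℚ) ≤ Fintype.card α₁ := by positivity
  have hα2 : (0 : ℚ) ≤ Fintype.card α₂ := by positivity
  have hpn : 0 ≤ (p : ℚ) * (n - C) := mul_nonneg hp0 (by linarith)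
  have hgG' : (G : ℚ) ≤ g := by
    have : G ≤ g := by
      have : 0 ≤ p * s := Nat.zero_le _
      omega
    exact_mod_cast this
  have hE : EE Φ = 2 * Φ + 1 := rfl
  have hH : HH Φ = 3 * EE Φ + 1 := rfl
  have hΦ := hB.pos
  have hH0 : 0 ≤ HH Φ := by linarith
  obtain ⟨w, hw, hwV⟩ := frac_node (K := K) (ext1_frac hw1 h e Φ) (ext2_frac hw2 g Φ)
    (V₁ := V₁) (V₂ := V₂) (n := n) (C := C) (by rw [ext1_total, hV1]) (by rw [ext2_total, hV2])
    hn hC hCV hCn (by rw [hcard0]; linarith) (by rw [hcard0]; linarith)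
    (by rw [hcard2]; linarith)
    (a := na Φ a₁ a₂) (b := nb Φ b₁ b₂) (c := nc Φ c₁ c₂)
    (by
      intro u j y z huse
      change mic a₁ Φ u + (mic (b₁ j) Φ y - 2 * HH Φ * (j : ℕ)) +
        (mic (c₁ j) Φ z + 2 * HH Φ * (j : ℕ)) ≤ 0
      linarith)
    (by
      intro v i y z huse
      change (mic a₂ Φ v - HH Φ) + (b₂ i y + HH Φ) + c₂ i z ≤ 0
      linarith)
    (by
      intro u j y k z hjk
      change mic a₁ Φ u + (mic (b₁ j) Φ y - 2 * HH Φ * (j : ℕ)) +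
        (mic (c₁ k) Φ z + 2 * HH Φ * (k : ℕ)) ≤ 0
      have h1 := mic_bd hΦ hB.a1 u
      have h2 := mic_bd hΦ (hB.b1 j) y
      have h3 := mic_bd hΦ (hB.c1 k) z
      have h4 := mulH hH0 (show (k : ℕ) < j by omega)
      linarith [h1.2.1, h2.2.1, h3.2.1])
    (by
      intro u j y z
      change (mic a₂ Φ u - HH Φ) + (mic (b₁ j) Φ y - 2 * HH Φ * (j : ℕ)) +
        (mic (c₁ j) Φ z + 2 * HH Φ * (j : ℕ)) ≤ 0
      have h1 := mic_bd hΦ hB.a2 u
      have h2 := mic_bd hΦ (hB.b1 j) y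
      have h3 := mic_bd hΦ (hB.c1 j) z
      linarith [h1.2.1, h2.2.1, h3.2.1])
  refine ⟨p * (Fintype.card β₁ + e) + s, V₂ + p * n + C, ⟨NA α₁ α₂ g h, NB β₁ β₂ (p + 1) e,
    inferInstance, inferInstance, na Φ a₁ a₂, nb Φ b₁ b₂, nc Φ c₁ c₂, w, ?_, hw, hwV⟩, ?_⟩
  · intro S hS
    have h3 := int_half hB hT1 hT2 S hS
    have h4 : (p + 1) * S.card ≤ (p + 1) * (p * (Fintype.card β₁ + e) + s) + p := by
      have h5 : p + 1 - 1 = p := rfl
      rw [h5] at h3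
      have h6 : (p + 1) * (p * (Fintype.card β₁ + e) + s) =
        (p + 1) * p * (Fintype.card β₁ + e) + (p + 1) * s := by ring
      rw [h6]
      omega
    by_contra hcon
    push_neg at hcon
    have h7 : (p + 1) * (p * (Fintype.card β₁ + e) + s + 1) ≤ (p + 1) * S.card :=
      Nat.mul_le_mul_left _ hcon
    have h8 : (p + 1) * (p * (Fintype.card β₁ + e) + s + 1) =
      (p + 1) * (p * (Fintype.card β₁ + e) + s) + (p + 1) := by ring
    omega
  · have hC' : C = ((Fintype.card α₂ : ℚ) + g - V₂ + V₁) / (p + 1) := by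
      rw [eq_div_iff (by positivity), mul_comm, hC, hcard2]
    have hg' : (g : ℚ) = (p + 1) * s + p - (Fintype.card α₂ + T₁ + p * T₂) := by
      rw [← hPQ]; linarith
    rw [hn', hC', hg']
    push_cast
    field_simp
    ring

end Vale.Agent.P302.Star
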